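import Vale.Agent.P128.Stmt

/-! P128 Defs: the working class of almost minimizers and the notions used in the proof.
See notes/P128.md. -/

namespace Vale.Agent.P128

open MeasureTheory Set Metric Filter Topology
open scoped ENNReal

noncomputable section

/-- Dirichlet energy on `S`. -/
def Dir (w : ℂ → ℝ) (S : Set ℂ) : ℝ≥0∞ := ∫⁻ z in S, ‖fderiv ℝ w z‖ₑ ^ 2

/-- Mumford-Shah energy without fidelity term on `S`. -/
def En (w : ℂ → ℝ) (L S : Set ℂ) : ℝ≥0∞ := Dir w (S \ L) + μH[1] (L ∩ S)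

/-- Real Dirichlet energy in an open ball. -/
def D (u : ℂ → ℝ) (K : Set ℂ) (y : ℂ) (r : ℝ) : ℝ := (Dir u (ball y r \ K)).toReal

/-- Real length of `K` in an open ball. -/
def len (K : Set ℂ) (y : ℂ) (r : ℝ) : ℝ := (μH[1] (K ∩ ball y r)).toReal

/-- Real length of `K` in a closed ball. -/
def lenc (K : Set ℂ) (y : ℂ) (r : ℝ) : ℝ := (μH[1] (K ∩ closedBall y r)).toReal

/-- `u_x - i u_y`. -/
def dz (u : ℂ → ℝ) (z : ℂ) : ℂ :=
  ((fderiv ℝ u z 1 : ℝ) : ℂ) - Complex.I * ((fderiv ℝ u z Complex.I : ℝ) : ℂ)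

/-- The gradient `u_x + i u_y`. -/
def gr (u : ℂ → ℝ) (z : ℂ) : ℂ :=
  ((fderiv ℝ u z 1 : ℝ) : ℂ) + Complex.I * ((fderiv ℝ u z Complex.I : ℝ) : ℂ)

/-- Angles in one period whose point on the circle is off `K`. -/
def offK (K : Set ℂ) (y : ℂ) (s : ℝ) : Set ℝ :=
  {θ | θ ∈ Ioc (-Real.pi) Real.pi ∧ circleMap y s θ ∉ K}

/-- The circle integral of the squared gradient (the derivative of `D` in the radius). -/
def Dp (u : ℂ → ℝ) (K : Set ℂ) (y : ℂ) (s : ℝ) : ℝ≥0∞ :=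
  ∫⁻ θ in offK K y s, ENNReal.ofReal s * ‖fderiv ℝ u (circleMap y s θ)‖ₑ ^ 2

/-- Every closed angle interval of length `ω` contains the angle of a point of `K`. -/
def Gap (K : Set ℂ) (y : ℂ) (s ω : ℝ) : Prop :=
  ∀ θ : ℝ, ∃ θ' ∈ Icc θ (θ + ω), circleMap y s θ' ∈ K

/-- Locally constant on `U`. -/
def LC (U : Set ℂ) (c : ℂ → ℝ) : Prop := ∀ z ∈ U, ∀ᶠ w in 𝓝 z, c w = c z

/-- `L` separates whatever `K` separates outside `B`. -/
def Sep (Ω K L B : Set ℂ) : Prop :=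
  ∀ c : ℂ → ℝ, LC (Ω \ K) c → ∃ c' : ℂ → ℝ, LC (Ω \ L) c' ∧ ∀ z ∈ Ω \ K, z ∉ B → c' z = c z

/-- Competitor in the closed ball. -/
structure Comp (Ω : Set ℂ) (wk : Prop) (u : ℂ → ℝ) (K : Set ℂ) (y : ℂ) (r : ℝ)
    (w : ℂ → ℝ) (L : Set ℂ) : Prop where
  closed : IsClosed L
  eqL : L \ closedBall y r = K \ closedBall y r
  eqw : ∀ z ∈ Ω \ K, z ∉ closedBall y r → w z = u z
  lip : LocallyLipschitzOn (Ω \ L) w
  sep : wk → Sep Ω K L (closedBall y r)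

/-- Almost minimizer with harmonic `u`, without the lower density bound. -/
structure AM0 (Ω : Set ℂ) (ε : ℝ) (wk : Prop) (u : ℂ → ℝ) (K : Set ℂ) : Prop where
  isOpen : IsOpen Ω
  closed : IsClosed K
  eps : 0 ≤ ε
  wk0 : wk → ε = 0
  small : ∀ y r, 0 < r → closedBall y r ⊆ Ω → ε * √r ≤ 1
  diff : ∀ z ∈ Ω \ K, DifferentiableAt ℝ u z
  holo : DifferentiableOn ℂ (dz u) (Ω \ K)
  min : ∀ y r w L, 0 < r → closedBall y r ⊆ Ω → Comp Ω wk u K y r w L →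
    En u K (closedBall y r) ≤ En w L (closedBall y r) + ENNReal.ofReal (ε * r * √r)
  outer : ∃ a : ℝ, 0 ≤ a ∧
    (∀ y r, 0 < r → closedBall y r ⊆ Ω → a * r ≤ ε ∧ ∀ z ∈ Ω \ K, a * |u z| * √r ≤ ε) ∧
    ∀ (ψ : ℂ → ℝ) (C : Set ℂ), IsCompact C → C ⊆ Ω → (∀ z, z ∉ C → ψ z = 0) →
      LocallyLipschitzOn (Ω \ K) ψ → (∃ M, ∀ z, |ψ z| ≤ M) → Dir ψ (Ω \ K) < ∞ →
      |∫ z in Ω \ K, fderiv ℝ ψ z (gr u z)| ≤
        a * (∫ z in Ω \ K, |ψ z|) + ε * ∫ z in Ω \ K, ‖fderiv ℝ ψ z‖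

/-- Almost minimizer with lower density bound `c`. -/
structure AM (Ω : Set ℂ) (ε : ℝ) (wk : Prop) (c : ℝ) (u : ℂ → ℝ) (K : Set ℂ) : Prop
    extends AM0 Ω ε wk u K where
  cpos : 0 < c
  cle : c ≤ 1
  dens : ∀ y ∈ K, ∀ r, 0 < r → closedBall y r ⊆ Ω →
    ENNReal.ofReal (c * r) ≤ μH[1] (K ∩ ball y r)

/-- Global minimizer (topological competitors). -/
abbrev GM (c : ℝ) (u : ℂ → ℝ) (K : Set ℂ) : Prop := AM univ 0 True c u K

/-- No nonempty compact relatively open piece. -/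
def NoPiece (K : Set ℂ) : Prop := ∀ G, G ⊆ K → IsCompact G → IsClosed (K \ G) → G = ∅

/-- A sequence of almost minimizers on domains exhausting the plane, errors tending to zero. -/
structure Seq (c : ℝ) (Ω : ℕ → Set ℂ) (ε : ℕ → ℝ) (wk : ℕ → Prop) (u : ℕ → ℂ → ℝ)
    (K : ℕ → Set ℂ) : Prop where
  am : ∀ n, AM (Ω n) (ε n) (wk n) c (u n) (K n)
  eps : Tendsto ε atTop (𝓝 0)
  dom : ∀ R : ℝ, ∀ᶠ n in atTop, closedBall (0 : ℂ) R ⊆ Ω n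

/-- Convergence of sets and gradients. -/
structure Conv0 (u : ℕ → ℂ → ℝ) (K : ℕ → Set ℂ) (v : ℂ → ℝ) (L : Set ℂ) : Prop where
  closed : IsClosed L
  low : ∀ z ∈ L, ∀ η : ℝ, 0 < η → ∀ᶠ n in atTop, (K n ∩ ball z η).Nonempty
  up : ∀ C, IsCompact C → Disjoint C L → ∀ᶠ n in atTop, Disjoint C (K n)
  diff : ∀ z ∉ L, DifferentiableAt ℝ v z
  holo : DifferentiableOn ℂ (dz v) Lᶜ
  grad : TendstoLocallyUniformlyOn (fun n => fderiv ℝ (u n)) (fderiv ℝ v) atTop Lᶜ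

/-- Full convergence: also energies and lengths. -/
structure Conv (u : ℕ → ℂ → ℝ) (K : ℕ → Set ℂ) (v : ℂ → ℝ) (L : Set ℂ) : Prop
    extends Conv0 u K v L where
  en : ∀ y r, 0 < r → Tendsto (fun n => D (u n) (K n) y r) atTop (𝓝 (D v L y r))
  lsc : ∀ y r η, 0 < r → 0 < η → ∀ᶠ n in atTop, len L y r - η ≤ len (K n) y r
  usc : ∀ y r η, 0 < r → 0 < η → ∀ᶠ n in atTop, lenc (K n) y r ≤ lenc L y r + η

/-- Rescaled function. -/
def rescU (u : ℂ → ℝ) (x : ℂ) (ρ : ℝ) : ℂ → ℝ := fun z => u (x + ρ * z) / √ρ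

/-- Rescaled set. -/
def rescS (S : Set ℂ) (x : ℂ) (ρ : ℝ) : Set ℂ := {z | x + ρ * z ∈ S}

/-- The `N`-th root of unity. -/
def rt (N : ℕ) : ℂ := Complex.exp (2 * Real.pi * Complex.I / N)

/-- `N` rays from `z` at equal angles: a ray, a line, a propeller for `N = 1, 2, 3`. -/
def cone (N : ℕ) (z e : ℂ) : Set ℂ := {w | ∃ (j : ℕ) (t : ℝ), 0 ≤ t ∧ w = z + t * (e * rt N ^ j)}

/-- Two-sided closeness of `K` to the cone in the closed ball of radius `t`. -/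
def Close (N : ℕ) (η : ℝ) (K : Set ℂ) (z : ℂ) (t : ℝ) (e : ℂ) : Prop :=
  ‖e‖ = 1 ∧ (∀ w ∈ K ∩ closedBall z t, ∃ w' ∈ cone N z e, dist w w' ≤ η * t) ∧
    ∀ w ∈ cone N z e ∩ closedBall z t, ∃ w' ∈ K, dist w w' ≤ η * t

/-- Closed strip of half width `h` around the line through `x` with unit direction `e`. -/
def strip (x e : ℂ) (h : ℝ) : Set ℂ := {w | |((w - x) * (starRingEnd ℂ) e).im| ≤ h}

/-- Energy at most `δ` times the radius at all radii up to `R`. -/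
def Low (u : ℂ → ℝ) (K : Set ℂ) (δ : ℝ) (z : ℂ) (R : ℝ) : Prop :=
  ∀ t, 0 < t → t ≤ R → D u K z t ≤ δ * t

/-- `v` is a continuous harmonic conjugate of `u`, with the universal Hoelder bound. -/
structure Conj (u : ℂ → ℝ) (K : Set ℂ) (v : ℂ → ℝ) : Prop where
  holder : ∀ z z', |v z - v z'| ≤ 1000 * √(dist z z')
  deriv : ∀ z ∉ K, HasFDerivAt v
    ((fderiv ℝ u z).comp (ContinuousLinearMap.mul ℝ ℂ (-Complex.I))) z

/-- A conjugate vanishing on all of `K`. -/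
def ZF (u : ℂ → ℝ) (K : Set ℂ) : Prop := ∃ v, Conj u K v ∧ ∀ z ∈ K, v z = 0

/-- In the square of half side `h` around `y` with direction `e`, `K` is a `C^{1,α}` graph with
slope at most `1/100` and Hoelder constant `A` at scale `r`. -/
structure Graph (K : Set ℂ) (y e : ℂ) (h A α r : ℝ) (φ φ' : ℝ → ℝ) : Prop where
  unit : ‖e‖ = 1
  zero : φ 0 = 0
  deriv : ∀ t ∈ Icc (-h) h, HasDerivAt φ (φ' t) t
  slope : ∀ t ∈ Icc (-h) h, |φ' t| ≤ 1 / 100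
  holder : ∀ s ∈ Icc (-h) h, ∀ t ∈ Icc (-h) h, |φ' s - φ' t| ≤ A * (|s - t| / r) ^ α
  eq : ∀ s ∈ Icc (-h) h, ∀ t ∈ Icc (-h) h,
    (y + e * ((s : ℂ) + (t : ℂ) * Complex.I) ∈ K ↔ t = φ s)

/-- A curve from `x` parametrized by the distance to `x`, with scale invariant Hoelder bound. -/
structure Radial (x : ℂ) (ρ A α : ℝ) (z z' : ℝ → ℂ) : Prop where
  norm : ∀ r ∈ Ioc 0 ρ, ‖z r - x‖ = r
  deriv : ∀ r ∈ Ioc 0 ρ, HasDerivAt z (z' r) r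
  bound : ∀ r ∈ Ioc 0 ρ, ‖z' r‖ ≤ 2
  holder : ∀ r ∈ Ioc 0 ρ, ∀ r' ∈ Icc (r / 2) r, ‖z' r - z' r'‖ ≤ A * ((r - r') / r) ^ α

end

end Vale.Agent.P128
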