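import Vale.Agent.P128.Defs

/-! P128 Defs2: further notions used in the interfaces. -/

namespace Vale.Agent.P128

open MeasureTheory Set Metric Filter Topology
open scoped ENNReal

noncomputable section

/-- The boundary term of `(u - κ) u_ν` on the circle off `K`. -/
def flux (u κ : ℂ → ℝ) (K : Set ℂ) (y : ℂ) (s : ℝ) : ℝ :=
  ∫ θ in offK K y s, s * ((u (circleMap y s θ) - κ (circleMap y s θ)) *
    fderiv ℝ u (circleMap y s θ) (circleMap 0 1 θ))

/-- `κ` takes different values on different arcs of the circle off `K`. -/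
def SepArcs (K : Set ℂ) (κ : ℂ → ℝ) (y : ℂ) (s : ℝ) : Prop :=
  ∀ p ∈ sphere y s \ K, ∀ q ∈ sphere y s \ K, κ p = κ q → JoinedIn (sphere y s \ K) p q

/-- The closed annulus of width `δ` inside the circle, minus open discs of radius `ρ`. -/
def collar (y : ℂ) (s δ ρ : ℝ) (Z : Finset ℂ) : Set ℂ :=
  {z | s - δ ≤ dist z y ∧ dist z y ≤ s ∧ ∀ p ∈ Z, ρ ≤ dist z p}

/-- The two test points above and below `x` in the direction normal to `e`. -/
def upP (x e : ℂ) (r : ℝ) : ℂ := x + (r / 2 : ℝ) * (Complex.I * e)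

def dnP (x e : ℂ) (r : ℝ) : ℂ := x - (r / 2 : ℝ) * (Complex.I * e)

/-- The two test points are separated even after changes in the ball of radius `R`. -/
def SepUD (Ω K : Set ℂ) (x e : ℂ) (r R : ℝ) : Prop :=
  ∃ κ : ℂ → ℝ, LC (Ω \ K) κ ∧ ∀ κ' : ℂ → ℝ, LC (Ω \ K) κ' →
    (∀ z ∈ Ω \ K, z ∉ closedBall x R → κ' z = κ z) → κ' (upP x e r) ≠ κ' (dnP x e r)

/-- The conclusion of the regularity theorem at `x`. -/
def Reg (Ω K : Set ℂ) (x : ℂ) : Prop :=
  ∃ α : ℝ, 0 < α ∧ ∃ N ∈ 𝓝 x, N ⊆ Ω ∧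
    (ArcThrough α (K ∩ N) x ∨ ArcEnding α (K ∩ N) x ∨ TripleJunction α (K ∩ N) x)

/-- The crack tip with tip `z` and direction `e`, with energy `d` per unit radius. -/
structure IsRay (u : ℂ → ℝ) (K : Set ℂ) (z e : ℂ) (d : ℝ) : Prop where
  unit : ‖e‖ = 1
  eq : K = cone 1 z e
  sq : ∀ w ∉ K, (w - z) * dz u w ^ 2 = ((d / (2 * Real.pi) : ℝ) : ℂ) * (starRingEnd ℂ) e
  en : ∀ s, 0 < s → D u K z s = d * s

/-- Locally constant `u` with `K` a line or a propeller. -/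
def IsNet (u : ℂ → ℝ) (K : Set ℂ) : Prop :=
  (∀ z ∉ K, fderiv ℝ u z = 0) ∧ ∃ z e : ℂ, ‖e‖ = 1 ∧ (K = cone 2 z e ∨ K = cone 3 z e)

end

end Vale.Agent.P128
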