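import Vale.Agent.P128.Defs2

/-! P128 Defs3: stars of radial curves. -/

namespace Vale.Agent.P128

open MeasureTheory Set Metric Filter Topology
open scoped ENNReal

/-- In the closed ball `K` consists of `x` and `N` disjoint radial curves. -/
structure Star (N : ℕ) (K : Set ℂ) (x : ℂ) (ρ A α : ℝ) (z z' : Fin N → ℝ → ℂ) : Prop where
  pos : 0 < ρ
  apos : 0 < α
  rad : ∀ j, Radial x ρ A α (z j) (z' j)
  ne : ∀ i j, i ≠ j → ∀ r ∈ Ioc 0 ρ, z i r ≠ z j r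
  eq : K ∩ closedBall x ρ = {x} ∪ ⋃ j, z j '' Ioc 0 ρ

/-- The curves have tangents at `x` with a power rate, at pairwise angles of 120 degrees. -/
def Tang (N : ℕ) (x : ℂ) (ρ : ℝ) (z : Fin N → ℝ → ℂ) : Prop :=
  ∃ (e : Fin N → ℂ) (β C : ℝ), 0 < β ∧ (∀ j, ‖e j‖ = 1) ∧
    (∀ i j, i ≠ j → (e i * (starRingEnd ℂ) (e j)).re = -1 / 2) ∧
    ∀ j, ∀ r ∈ Ioc 0 ρ, ‖z j r - x - r * e j‖ ≤ C * r ^ (1 + β)

end Vale.Agent.P128
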