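import Mathlib

/-! P128 Stmt: the definitions used in the statement. The plane is the complex plane with its
Euclidean norm, Lebesgue measure `volume` and Hausdorff measure `μH[1]`. -/

namespace Vale.Agent.P128

open MeasureTheory Set Metric
open scoped ENNReal

/-- `G` is the weak gradient of `u` on the open set `U`. -/
def WeakGrad (U : Set ℂ) (u : ℂ → ℝ) (G : ℂ → ℂ) : Prop :=
  ∀ φ : ℂ → ℝ, ContDiff ℝ (⊤ : ℕ∞) φ → HasCompactSupport φ → tsupport φ ⊆ U →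
    ∀ e : ℂ, ∫ z in U, u z * fderiv ℝ φ z e = -∫ z in U, inner ℝ (G z) e * φ z

/-- Admissible pair `(u, K)`, with `G` the weak gradient of `u` off `K`. -/
structure Admissible (Ω : Set ℂ) (u : ℂ → ℝ) (G : ℂ → ℂ) (K : Set ℂ) : Prop where
  sub : K ⊆ Ω
  relClosed : IsOpen (Ω \ K)
  finite : μH[1] K < ∞
  memL2 : MemLp u 2 (volume.restrict Ω)
  gradL2 : MemLp G 2 (volume.restrict (Ω \ K))
  weak : WeakGrad (Ω \ K) u G

/-- The Mumford-Shah energy in `V`. -/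
noncomputable def energy (g u : ℂ → ℝ) (G : ℂ → ℂ) (K V : Set ℂ) : ℝ≥0∞ :=
  (∫⁻ z in V \ K, ‖G z‖ₑ ^ 2) + μH[1] (K ∩ V) + ∫⁻ z in V, ‖u z - g z‖ₑ ^ 2

/-- Minimizer: admissible and no better competitor that differs only in a compact subset `C` of
an open set `V` with compact closure in `Ω`. -/
structure Minimizer (Ω : Set ℂ) (g u : ℂ → ℝ) (G : ℂ → ℂ) (K : Set ℂ) : Prop where
  adm : Admissible Ω u G K
  min : ∀ V : Set ℂ, IsOpen V → IsCompact (closure V) → closure V ⊆ Ω →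
    ∀ (w : ℂ → ℝ) (H : ℂ → ℂ) (L : Set ℂ), Admissible Ω w H L →
    ∀ C : Set ℂ, IsCompact C → C ⊆ V → symmDiff L K ⊆ C →
      (∀ᵐ z ∂(volume.restrict (Ω \ C)), w z = u z) →
      energy g u G K V ≤ energy g w H L V

/-- Every disk centred on `K` and compactly contained in `Ω` meets `K` in positive length. -/
def Reduced (Ω K : Set ℂ) : Prop :=
  ∀ x ∈ K, ∀ r : ℝ, 0 < r → closedBall x r ⊆ Ω → 0 < μH[1] (K ∩ ball x r)

/-- `γ` on `[0,1]` is an embedded `C^{1,α}` arc with derivative `γ'`. -/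
structure IsArc (α : ℝ) (γ γ' : ℝ → ℂ) : Prop where
  deriv : ∀ t ∈ Icc (0 : ℝ) 1, HasDerivWithinAt γ (γ' t) (Icc 0 1) t
  ne : ∀ t ∈ Icc (0 : ℝ) 1, γ' t ≠ 0
  inj : InjOn γ (Icc 0 1)
  holder : ∃ C : ℝ, ∀ s ∈ Icc (0 : ℝ) 1, ∀ t ∈ Icc (0 : ℝ) 1, ‖γ' s - γ' t‖ ≤ C * |s - t| ^ α

/-- `S` is an embedded `C^{1,α}` arc with `x` in its interior. -/
def ArcThrough (α : ℝ) (S : Set ℂ) (x : ℂ) : Prop :=
  ∃ γ γ' : ℝ → ℂ, IsArc α γ γ' ∧ S = γ '' Icc 0 1 ∧ ∃ t ∈ Ioo (0 : ℝ) 1, γ t = x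

/-- `S` is an embedded `C^{1,α}` arc ending at `x`. -/
def ArcEnding (α : ℝ) (S : Set ℂ) (x : ℂ) : Prop :=
  ∃ γ γ' : ℝ → ℂ, IsArc α γ γ' ∧ S = γ '' Icc 0 1 ∧ γ 0 = x

/-- `S` is the union of three embedded `C^{1,α}` arcs meeting only at `x`, at pairwise angles
`2π/3`. -/
def TripleJunction (α : ℝ) (S : Set ℂ) (x : ℂ) : Prop :=
  ∃ γ γ' : Fin 3 → ℝ → ℂ, (∀ i, IsArc α (γ i) (γ' i) ∧ γ i 0 = x) ∧
    S = ⋃ i, γ i '' Icc 0 1 ∧
    ∀ i j, i ≠ j → (γ i '' Icc 0 1) ∩ (γ j '' Icc 0 1) = {x} ∧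
      InnerProductGeometry.angle (γ' i 0) (γ' j 0) = 2 * Real.pi / 3

end Vale.Agent.P128
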