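import Vale.Agent.P128.B10.Main
import Vale.Agent.P128.B0.Main
import Vale.Agent.P128.B2.Main

/-! P128 Top: the regularity theorem. -/

namespace Vale.Agent.P128

open MeasureTheory Set Metric Filter Topology
open scoped ENNReal

theorem top {Ω : Set ℂ} (hΩ : IsOpen Ω) {g u : ℂ → ℝ} {G : ℂ → ℂ} {K : Set ℂ}
    (hg : MemLp g ∞ (volume.restrict Ω)) (hmin : Minimizer Ω g u G K) (hred : Reduced Ω K)
    {x : ℂ} (hx : x ∈ K) : Reg Ω K x := by
  obtain ⟨c, ε₀, hc, hc1, hε₀, hd⟩ := density
  obtain ⟨r, ε, v, hr, hB, hε, ham⟩ := reduce hΩ hg hmin (hmin.adm.sub hx) hε₀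
  have key : ∀ y t, 0 < t → closedBall y t ⊆ ball x r → t ≤ r := by
    intro y t ht hs
    by_contra hlt
    push Not at hlt
    have h1 : y + (t : ℂ) ∈ ball x r := hs (by simp [abs_of_pos ht])
    have h2 : y - (t : ℂ) ∈ ball x r := hs (by simp [abs_of_pos ht])
    have h3 : dist (y + (t : ℂ)) (y - (t : ℂ)) = 2 * t := by
      rw [dist_eq_norm]
      have : y + (t : ℂ) - (y - (t : ℂ)) = ((2 * t : ℝ) : ℂ) := by push_cast; ring
      rw [this, Complex.norm_real, Real.norm_eq_abs, abs_of_pos (by linarith)]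
    have h4 := dist_triangle_right (y + (t : ℂ)) (y - (t : ℂ)) x
    rw [mem_ball] at h1 h2
    linarith
  have hAM : AM (ball x r) ε False c v (K ∩ closedBall x r) := by
    refine hd _ _ _ _ _ ham ?_ ?_
    · intro y t ht hs
      exact le_trans (mul_le_mul_of_nonneg_left (Real.sqrt_le_sqrt (key y t ht hs)) ham.eps) hε
    · intro y hy t ht hs
      have h1 := hred y hy.1 t ht (hs.trans (ball_subset_closedBall.trans hB))
      have h2 : K ∩ ball y t = K ∩ closedBall x r ∩ ball y t := by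
        ext w
        constructor
        · intro hw
          exact ⟨⟨hw.1, ball_subset_closedBall (hs (ball_subset_closedBall hw.2))⟩, hw.2⟩
        · intro hw
          exact ⟨hw.1.1, hw.2⟩
      rwa [← h2]
  obtain ⟨α, hα, N, hN, hNs, hreg⟩ :=
    final_AM hAM ⟨hx, mem_closedBall_self hr.le⟩ (mem_ball_self hr)
  have h2 : K ∩ closedBall x r ∩ N = K ∩ N := by
    ext w
    constructor
    · intro hw
      exact ⟨hw.1.1, hw.2⟩
    · intro hw
      exact ⟨⟨hw.1, ball_subset_closedBall (hNs hw.2)⟩, hw.2⟩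
  rw [h2] at hreg
  exact ⟨α, hα, N, hN, hNs.trans (ball_subset_closedBall.trans hB), hreg⟩

end Vale.Agent.P128
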